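import Mathlib

/-! An analogue of the Bruck-Ryser argument for the Gram data of seven orthonormal blocks. -/

open scoped BigOperators

noncomputable section

namespace Vale.Agent.P355

variable {F : Type} [Field F] [LinearOrder F] [IsStrictOrderedRing F]

/-- Forty linear forms can be made equal to their variables up to sign. -/
theorem exists_elim : ∀ (n : ℕ) (V : Type) [AddCommGroup V] [Module F V]
    (L : Fin n → ((Fin n → F) × V) →ₗ[F] F),
    ∃ φ : V →ₗ[F] (Fin n → F), ∀ i v, L i (φ v, v) ^ 2 = φ v i ^ 2 := by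
  intro n
  induction n with
  | zero => intro V _ _ L; exact ⟨0, fun i => i.elim0⟩
  | succ n ih =>
    intro V _ _ L
    let shift : ((Fin n → F) × (F × V)) →ₗ[F] ((Fin (n + 1) → F) × V) :=
      { toFun := fun p => (Fin.cons p.2.1 p.1, p.2.2)
        map_add' := fun p q => by
          refine Prod.ext ?_ rfl
          funext i
          refine Fin.cases ?_ ?_ i <;> simp
        map_smul' := fun c p => by
          refine Prod.ext ?_ rfl
          funext i
          refine Fin.cases ?_ ?_ i <;> simp }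
    obtain ⟨ψ, hψ⟩ := ih (F × V) fun i => (L i.succ).comp shift
    let l : (F × V) →ₗ[F] F := (L 0).comp (shift.comp (LinearMap.prod ψ LinearMap.id))
    obtain ⟨ε, hε, hne⟩ : ∃ ε : F, ε ^ 2 = 1 ∧ ε - l (1, 0) ≠ 0 := by
      by_cases h : l (1, 0) = 1
      · exact ⟨-1, by ring, by rw [h]; norm_num⟩
      · exact ⟨1, by ring, sub_ne_zero.2 (Ne.symm h)⟩
    let g : V →ₗ[F] F := (ε - l (1, 0))⁻¹ • l.comp (LinearMap.inr F F V)
    let φ : V →ₗ[F] (Fin (n + 1) → F) := (LinearMap.fst F (Fin (n + 1) → F) V).comp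
      (shift.comp ((LinearMap.prod ψ LinearMap.id).comp (LinearMap.prod g LinearMap.id)))
    refine ⟨φ, fun i v => ?_⟩
    have hpair : (φ v, v) = shift (ψ (g v, v), (g v, v)) := rfl
    induction i using Fin.cases with
    | zero =>
      have hl : L 0 (φ v, v) = ε * g v := by
        have e : ((g v, v) : F × V) = g v • ((1 : F), (0 : V)) + (0, v) := by simp
        have h1 : L 0 (φ v, v) = l (g v, v) := rfl
        have h2 : g v = (ε - l (1, 0))⁻¹ * l (0, v) := rfl
        rw [h1, e, map_add, map_smul, smul_eq_mul, h2]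
        field_simp
        ring
      rw [hl, mul_pow, hε, one_mul]
      rfl
    | succ i =>
      rw [hpair]
      exact hψ i (g v, v)

/-- Multiplication by the quaternion of norm six. -/
def quad (a : Fin 4 → F) : Fin 4 → F :=
  ![2 * a 0 - a 1 - a 2, a 0 + 2 * a 1 + a 3, a 0 + 2 * a 2 - a 3, 2 * a 3 + a 2 - a 1]

omit [LinearOrder F] [IsStrictOrderedRing F] in
theorem sum_quad (a : Fin 4 → F) : ∑ i, quad a i ^ 2 = 6 * ∑ i, a i ^ 2 := by
  simp [quad, Fin.sum_univ_four]
  ring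

omit [LinearOrder F] [IsStrictOrderedRing F] in
theorem quad_add (a b : Fin 4 → F) : quad (a + b) = quad a + quad b := by
  funext i; fin_cases i <;> simp [quad] <;> ring

omit [LinearOrder F] [IsStrictOrderedRing F] in
theorem quad_smul (c : F) (a : Fin 4 → F) : quad (c • a) = c • quad a := by
  funext i; fin_cases i <;> simp [quad] <;> ring

/-- `quad` as a linear map. -/
def quadₗ : (Fin 4 → F) →ₗ[F] (Fin 4 → F) where
  toFun := quad
  map_add' := quad_add
  map_smul' := quad_smul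

/-- The Gram data of seven blocks of six vectors forces six to be a sum of two squares. -/
theorem six_sq_add_sq (v : Fin 7 → Fin 6 → Fin 36 → F)
    (hv : ∀ k j l m, ∑ i, v k j i * v l m i =
      if k = l then (if j = m then 1 else 0) else 1 / 6) :
    ∃ a b : F, a ^ 2 + b ^ 2 = 6 := by
  classical
  let A : (Fin 7 × Fin 6 → F) → Fin 36 → F := fun z i => ∑ p, z p * v p.1 p.2 i
  have hid : ∀ z : Fin 7 × Fin 6 → F,
      6 * ∑ i, A z i ^ 2 + ∑ k, (∑ j, z (k, j)) ^ 2 = 6 * ∑ p, z p ^ 2 + (∑ p, z p) ^ 2 := by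
    intro z
    have e : ∀ p q : Fin 7 × Fin 6,  z p * z q * ∑ i, v p.1 p.2 i * v q.1 q.2 i =
        (if p = q then z p * z q else 0) +
          1 / 6 * (z p * z q - if p.1 = q.1 then z p * z q else 0) := by
      rintro ⟨k, j⟩ ⟨l, m⟩
      rw [hv]
      by_cases h : k = l
      · by_cases h' : j = m <;> simp [h, h']
      · simp [h, mul_comm]
    have h2 : ∑ i, A z i ^ 2 = ∑ p : Fin 7 × Fin 6, ∑ q : Fin 7 × Fin 6,
        z p * z q * ∑ i, v p.1 p.2 i * v q.1 q.2 i := by
      simp only [A, sq, Finset.sum_mul, Finset.mul_sum]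
      rw [Finset.sum_comm]
      refine Finset.sum_congr rfl fun p _ => ?_
      rw [Finset.sum_comm]
      exact Finset.sum_congr rfl fun q _ => Finset.sum_congr rfl fun i _ => by ring
    have h3 : ∑ p : Fin 7 × Fin 6, ∑ q : Fin 7 × Fin 6, (if p.1 = q.1 then z p * z q else 0) =
        ∑ k, (∑ j, z (k, j)) ^ 2 := by
      simp only [Fintype.sum_prod_type]
      refine Finset.sum_congr rfl fun k _ => ?_
      rw [sq, Finset.sum_mul_sum]
      refine Finset.sum_congr rfl fun a _ => ?_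
      rw [Finset.sum_comm]
      simp
    rw [h2]
    simp only [e, Finset.sum_add_distrib, ← Finset.mul_sum, Finset.sum_sub_distrib, h3,
      Finset.sum_ite_eq, Finset.mem_univ, if_true, ← Finset.sum_mul, ← sq]
    ring
  let e₁ : Fin 7 × Fin 6 ≃ (Fin 10 × Fin 4) ⊕ Fin 2 := Fintype.equivOfCardEq (by simp)
  let e₂ : (Fin 9 × Fin 4) ≃ Fin 36 := Fintype.equivOfCardEq (by simp)
  let e₃ : Fin 40 ⊕ Fin 3 ≃ (Fin 9 × Fin 4) ⊕ Fin 7 := Fintype.equivOfCardEq (by simp)
  let e₄ : Fin 10 × Fin 4 ≃ Fin 40 := Fintype.equivOfCardEq (by simp)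
  let Z : ((Fin 40 → F) × (Fin 2 → F)) →ₗ[F] (Fin 7 × Fin 6 → F) := LinearMap.pi fun p =>
    Sum.elim
      (fun q => (LinearMap.proj (R := F) q.2).comp (quadₗ.comp (LinearMap.pi fun j =>
        (6 : F)⁻¹ • (LinearMap.proj (e₄ (q.1, j))).comp (LinearMap.fst F _ _))))
      (fun a => (LinearMap.proj a).comp (LinearMap.snd F _ _)) (e₁ p)
  let L : (Fin 9 × Fin 4) ⊕ Fin 7 → ((Fin 7 × Fin 6 → F) →ₗ[F] F) := Sum.elim
    (fun q => (LinearMap.proj q.2).comp (quadₗ.comp (LinearMap.pi fun j =>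
      ∑ p, (v p.1 p.2 (e₂ (q.1, j))) • LinearMap.proj p)))
    (fun k => ∑ j, LinearMap.proj (k, j))
  have hL : ∀ z, ∑ s, L s z ^ 2 = 6 * ∑ i, A z i ^ 2 + ∑ k, (∑ j, z (k, j)) ^ 2 := by
    intro z
    rw [Fintype.sum_sum_type, ← e₂.sum_comp, Fintype.sum_prod_type, Fintype.sum_prod_type,
      Finset.mul_sum]
    congr 1
    · refine Finset.sum_congr rfl fun g _ => ?_
      have : ∀ j, L (Sum.inl (g, j)) z = quad (fun j => A z (e₂ (g, j))) j := by
        intro j
        simp [L, A, quadₗ, mul_comm, LinearMap.pi]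
      simp only [this, sum_quad]
  obtain ⟨φ, hφ⟩ := exists_elim 40 (Fin 2 → F) fun i => (L (e₃ (Sum.inl i))).comp Z
  let f : (Fin 2 → F) →ₗ[F] ((Fin 7 × Fin 6) → F) := Z.comp (LinearMap.prod φ LinearMap.id)
  let g : (Fin 2 → F) →ₗ[F] F :=
    (L (e₃ (Sum.inr 2))).comp f - (∑ p, LinearMap.proj p : ((Fin 7 × Fin 6) → F) →ₗ[F] F).comp f
  obtain ⟨s, hs, hgs⟩ : ∃ s : Fin 2 → F, s ≠ 0 ∧ g s = 0 := by
    by_cases h : g ![0, 1] = 0
    · exact ⟨![0, 1], fun e => one_ne_zero (congrFun e 1), h⟩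
    · refine ⟨g ![0, 1] • ![1, 0] - g ![1, 0] • ![0, 1], fun e => h ?_, ?_⟩
      · simpa using congrFun e 0
      · rw [map_sub, map_smul, map_smul, smul_eq_mul, smul_eq_mul]; ring
  have hz : 6 * ∑ p, f s p ^ 2 = ∑ i, φ s i ^ 2 + 6 * ∑ a, s a ^ 2 := by
    rw [← e₁.symm.sum_comp, Fintype.sum_sum_type, mul_add, ← e₄.sum_comp,
      Fintype.sum_prod_type, Fintype.sum_prod_type, Finset.mul_sum]
    congr 1
    · refine Finset.sum_congr rfl fun q _ => ?_
      have : ∀ j, f s (e₁.symm (Sum.inl (q, j))) =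
          quad (fun j => φ s (e₄ (q, j)) / 6) j := by
        intro j; simp [f, Z, quadₗ, div_eq_inv_mul, LinearMap.pi]
      simp only [this, sum_quad]
      simp only [Fin.sum_univ_four]
      ring
    · simp [f, Z]
  have key := hid (f s)
  rw [← hL, ← e₃.sum_comp, Fintype.sum_sum_type, hz, Fin.sum_univ_three] at key
  have h40 : ∑ i, L (e₃ (Sum.inl i)) (f s) ^ 2 = ∑ i, φ s i ^ 2 :=
    Finset.sum_congr rfl fun i _ => hφ i s
  have hlast : L (e₃ (Sum.inr 2)) (f s) = ∑ p, f s p := by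
    have := hgs
    simp [g, sub_eq_zero] at this
    exact this
  rw [h40, hlast, Fin.sum_univ_two] at key
  set a := L (e₃ (Sum.inr 0)) (f s)
  set b := L (e₃ (Sum.inr 1)) (f s)
  have hN : s 0 ^ 2 + s 1 ^ 2 ≠ 0 := by
    intro h
    apply hs
    have h0 := sq_nonneg (s 0)
    have h1 := sq_nonneg (s 1)
    funext i
    fin_cases i
    · exact pow_eq_zero_iff two_ne_zero |>.1 (by linarith : s 0 ^ 2 = 0)
    · exact pow_eq_zero_iff two_ne_zero |>.1 (by linarith : s 1 ^ 2 = 0)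
  refine ⟨(a * s 0 + b * s 1) / (s 0 ^ 2 + s 1 ^ 2), (a * s 1 - b * s 0) / (s 0 ^ 2 + s 1 ^ 2), ?_⟩
  rw [div_pow, div_pow, ← add_div, div_eq_iff (pow_ne_zero 2 hN)]
  linear_combination (s 0 ^ 2 + s 1 ^ 2) * key

end Vale.Agent.P355
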