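import Vale.Agent.P355.Core

/-! No complete set of mutually unbiased bases in dimension six over certain fields. -/

open scoped BigOperators ComplexConjugate
open Matrix

noncomputable section

namespace Vale.Agent.P355

theorem ordered_field_case (F : IntermediateField ℚ ℝ) (δ : ℝ) (hδ : δ ^ 2 ∈ F) (hδ0 : δ ≠ 0)
    (x : Fin 7 → Fin 6 → Fin 6 → ℂ)
    (ho : ∀ k j m, ∑ a, x k j a * conj (x k m a) = if j = m then 1 else 0)
    (hu : ∀ k l, k ≠ l → ∀ j m, Complex.normSq (∑ a, x k j a * conj (x l m a)) = 1 / 6)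
    (hre : ∀ k j a b, (x k j a * conj (x k j b)).re ∈ F)
    (him : ∀ k j a b, (x k j a * conj (x k j b)).im / δ ∈ F) :
    ∃ a b : ℝ, a ∈ F ∧ b ∈ F ∧ a ^ 2 + b ^ 2 = 6 := by
  classical
  let P : Fin 7 → Fin 6 → Fin 6 → Fin 6 → ℂ := fun k j a b => x k j a * conj (x k j b)
  have hswap : ∀ k j a b, P k j b a = conj (P k j a b) := by
    intro k j a b; simp [P, mul_comm]
  have hinner : ∀ k j l m, ∑ a, ∑ b, ((P k j a b).re * (P l m a b).re +
      (P k j a b).im * (P l m a b).im) =
        if k = l then (if j = m then 1 else 0) else 1 / 6 := by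
    intro k j l m
    have h1 : ∀ a b, (P k j a b).re * (P l m a b).re + (P k j a b).im * (P l m a b).im =
        ((x k j a * conj (x l m a)) * conj (x k j b * conj (x l m b))).re := by
      intro a b
      simp [P, Complex.mul_re, Complex.mul_im]
      ring
    simp only [h1, ← Complex.re_sum, ← Finset.mul_sum, ← Finset.sum_mul, ← map_sum]
    rw [Complex.mul_conj, Complex.ofReal_re]
    by_cases h : k = l
    · subst h
      rw [ho, if_pos rfl]
      split_ifs <;> simp
    · rw [if_neg h, hu k l h]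
  have hsym : ∀ f : Fin 6 → Fin 6 → ℝ, ∑ a, ∑ b, f a b = ∑ a, ∑ b, (f a b + f b a) / 2 := by
    intro f
    simp only [← Finset.sum_div, Finset.sum_add_distrib]
    rw [Finset.sum_comm (f := fun a b => f b a)]
    ring
  -- The imaginary scale lies in the field, by comparing discriminants.
  have hδF : δ ∈ F := by
    let c : Fin 6 × Fin 6 → ℝ := fun p =>
      if p.1 = p.2 then 1 else if p.1 < p.2 then 2 else 2 * δ ^ 2
    let u : Fin 7 → Fin 6 → Fin 6 × Fin 6 → ℝ := fun k j p =>
      if p.1 ≤ p.2 then (P k j p.1 p.2).re else (P k j p.1 p.2).im / δ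
    have hu' : ∀ k j l m, ∑ p, c p * (u k j p * u l m p) =
        if k = l then (if j = m then 1 else 0) else 1 / 6 := by
      intro k j l m
      rw [← hinner, Fintype.sum_prod_type, hsym, hsym (fun a b =>
        (P k j a b).re * (P l m a b).re + (P k j a b).im * (P l m a b).im)]
      refine Finset.sum_congr rfl fun a _ => Finset.sum_congr rfl fun b _ => ?_
      congr 1
      rcases lt_trichotomy a b with h | h | h
      · simp only [c, u, h.le, h.ne, h.ne', h, not_le.2 h, not_lt.2 h.le, if_true, if_false]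
        rw [hswap k j a b, hswap l m a b, Complex.conj_re, Complex.conj_im, Complex.conj_re,
          Complex.conj_im]
        field_simp
        ring
      · subst h
        have hi : ∀ k j, (P k j a a).im = 0 := fun k j => by
          simp [P, Complex.mul_conj]
        simp [c, u, hi]
      · simp only [c, u, h.le, h.ne, h.ne', h, not_le.2 h, not_lt.2 h.le, if_true, if_false]
        rw [hswap k j b a, hswap l m b a, Complex.conj_re, Complex.conj_im, Complex.conj_re,
          Complex.conj_im]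
        field_simp
        ring
    let r : (Fin 5 × Fin 7) ⊕ Unit → Fin 6 × Fin 6 → ℝ := Sum.elim
      (fun p q => u p.2 p.1.castSucc q - u p.2 (Fin.last 5) q) (fun _ q => ∑ j, u 0 j q)
    have hdot : ∀ s t, ∑ p, c p * (r s p * r t p) = Matrix.fromBlocks
        (Matrix.blockDiagonal fun _ : Fin 7 =>
          (1 + replicateCol Unit (1 : Fin 5 → ℝ) * replicateRow Unit (1 : Fin 5 → ℝ)))
        0 0 ((6 : ℝ) • (1 : Matrix Unit Unit ℝ)) s t := by
      rintro (⟨j, k⟩ | _) (⟨m, l⟩ | _)
      · simp only [r, Sum.elim_inl, fromBlocks_apply₁₁, blockDiagonal_apply, mul_sub, sub_mul,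
          Finset.sum_sub_distrib, hu', (Fin.castSucc_lt_last _).ne, (Fin.castSucc_lt_last _).ne',
          Fin.castSucc_inj]
        by_cases h : k = l
        · by_cases h' : j = m <;>
            simp [h, h', Matrix.mul_apply]
        · simp [h]
      · simp only [r, Sum.elim_inl, Sum.elim_inr, fromBlocks_apply₁₂, Finset.mul_sum, sub_mul,
          mul_sub, Finset.sum_sub_distrib]
        rw [Finset.sum_comm, Finset.sum_comm (f := fun p j => c p * (u k (Fin.last 5) p * u 0 j p))]
        simp only [hu']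
        by_cases h : k = 0 <;> simp [h]
      · simp only [r, Sum.elim_inl, Sum.elim_inr, fromBlocks_apply₂₁, Finset.mul_sum,
          Finset.sum_mul, mul_sub, Finset.sum_sub_distrib]
        rw [Finset.sum_comm, Finset.sum_comm (f := fun p j => c p * (u 0 j p * u l (Fin.last 5) p))]
        simp only [hu']
        by_cases h : 0 = l <;> simp [h]
      · simp only [r, Sum.elim_inr, fromBlocks_apply₂₂, Finset.mul_sum, Finset.sum_mul]
        rw [Finset.sum_comm]
        simp only [Finset.sum_comm (γ := Fin 6 × Fin 6), hu']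
        simp
    let e : (Fin 5 × Fin 7) ⊕ Unit ≃ Fin 6 × Fin 6 := Fintype.equivOfCardEq (by simp)
    have hrF : ∀ s p, r s p ∈ F := by
      have huF : ∀ k j p, u k j p ∈ F := by
        intro k j p
        simp only [u]
        split_ifs
        · exact hre _ _ _ _
        · exact him _ _ _ _
      rintro (⟨j, k⟩ | _) p
      · exact F.sub_mem (huF _ _ _) (huF _ _ _)
      · exact sum_mem fun j _ => huF _ _ _
    let R : Matrix ((Fin 5 × Fin 7) ⊕ Unit) ((Fin 5 × Fin 7) ⊕ Unit) ℝ :=
      fun s t => r s (e t)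
    have hmat : R * Matrix.diagonal (fun t => c (e t)) * Rᵀ = Matrix.fromBlocks
        (Matrix.blockDiagonal fun _ : Fin 7 =>
          (1 + replicateCol Unit (1 : Fin 5 → ℝ) * replicateRow Unit (1 : Fin 5 → ℝ)))
        0 0 ((6 : ℝ) • (1 : Matrix Unit Unit ℝ)) := by
      ext s t
      rw [← hdot s t, Matrix.mul_apply, ← e.sum_comp]
      refine Finset.sum_congr rfl fun q _ => ?_
      rw [Matrix.mul_diagonal, Matrix.transpose_apply]
      simp only [R]
      ring
    have hdet := congrArg Matrix.det hmat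
    rw [det_mul, det_mul, det_transpose, det_diagonal, e.prod_comp, Fintype.prod_prod_type,
      det_fromBlocks_zero₂₁, det_blockDiagonal, det_one_add_replicateCol_mul_replicateRow] at hdet
    have hprod : ∏ a : Fin 6, ∏ b : Fin 6, c (a, b) = (2 : ℝ) ^ 30 * δ ^ 30 := by
      simp only [c, Fin.prod_univ_six]
      norm_num [Fin.ext_iff, Fin.lt_def]
      ring
    rw [hprod] at hdet
    have hsq : (R.det * 2 ^ 15 * δ ^ 15) ^ 2 = ((6 : ℝ) ^ 4) ^ 2 := by
      have : (6 : ℝ) ^ 8 = R.det * (2 ^ 30 * δ ^ 30) * R.det := by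
        rw [hdet]
        simp [dotProduct]
        norm_num
      rw [← pow_mul, this]
      ring
    have hR : R.det ∈ F := by
      rw [Matrix.det_apply]
      exact sum_mem fun σ _ => zsmul_mem (prod_mem fun t _ => hrF _ _) _
    have hne : R.det * 2 ^ 15 * (δ ^ 2) ^ 7 ≠ 0 := by
      intro h
      rw [show R.det * 2 ^ 15 * δ ^ 15 = R.det * 2 ^ 15 * (δ ^ 2) ^ 7 * δ by ring, h] at hsq
      norm_num at hsq
    have hden : R.det * 2 ^ 15 * (δ ^ 2) ^ 7 ∈ F :=
      F.mul_mem (F.mul_mem hR (pow_mem (natCast_mem F 2) _)) (pow_mem hδ _)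
    rcases eq_or_eq_neg_of_sq_eq_sq _ _ hsq with h | h
    · have : δ = (6 : ℝ) ^ 4 / (R.det * 2 ^ 15 * (δ ^ 2) ^ 7) := by
        rw [eq_div_iff hne, ← h]; ring
      rw [this]
      exact F.div_mem (pow_mem (natCast_mem F 6) _) hden
    · have : δ = -(6 : ℝ) ^ 4 / (R.det * 2 ^ 15 * (δ ^ 2) ^ 7) := by
        rw [eq_div_iff hne, ← h]; ring
      rw [this]
      exact F.div_mem (neg_mem (pow_mem (natCast_mem F 6) _)) hden
  let e36 : Fin 36 ≃ Fin 6 × Fin 6 := Fintype.equivOfCardEq (by simp)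
  have him' : ∀ k j a b, (P k j a b).im ∈ F := fun k j a b => by
    have : (P k j a b).im = (P k j a b).im / δ * δ := by field_simp
    rw [this]
    exact F.mul_mem (him k j a b) hδF
  let v : Fin 7 → Fin 6 → Fin 36 → F := fun k j i =>
    ⟨(P k j (e36 i).1 (e36 i).2).re + (P k j (e36 i).1 (e36 i).2).im,
      F.add_mem (hre _ _ _ _) (him' _ _ _ _)⟩
  obtain ⟨a, b, hab⟩ := six_sq_add_sq (F := F) v fun k j l m => by
    apply Subtype.ext
    push_cast
    simp only [v]
    rw [e36.sum_comp (fun p => ((P k j p.1 p.2).re + (P k j p.1 p.2).im) *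
      ((P l m p.1 p.2).re + (P l m p.1 p.2).im)), Fintype.sum_prod_type]
    refine Eq.trans ?_ ((hinner k j l m).trans (by split_ifs <;> simp <;> rfl))
    rw [hsym, hsym (fun a b => (P k j a b).re * (P l m a b).re + (P k j a b).im * (P l m a b).im)]
    refine Finset.sum_congr rfl fun a _ => Finset.sum_congr rfl fun b _ => ?_
    rw [hswap k j a b, hswap l m a b, Complex.conj_re, Complex.conj_im, Complex.conj_re,
      Complex.conj_im]
    ring
  refine ⟨a, b, a.2, b.2, ?_⟩
  have := congrArg Subtype.val hab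
  have h6 : (((6 : F) : ℝ)) = 6 := map_ofNat F.val 6
  rw [h6] at this
  simpa using this

/-- Six is not a sum of two rational squares. -/
theorem six_ne_rat (a b : ℚ) : a ^ 2 + b ^ 2 ≠ 6 := by
  intro h
  obtain ⟨n, x, y, hn, he⟩ : ∃ n : ℕ, ∃ x y : ℕ, n ≠ 0 ∧ x ^ 2 + y ^ 2 = 6 * n ^ 2 := by
    refine ⟨a.den * b.den, (a.num * b.den).natAbs, (b.num * a.den).natAbs, by positivity, ?_⟩
    have e : (a.num * b.den) ^ 2 + (b.num * a.den) ^ 2 = 6 * ((a.den * b.den : ℕ) : ℤ) ^ 2 := by
      rw [← a.num_div_den, ← b.num_div_den] at h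
      have ha : (a.den : ℚ) ≠ 0 := by positivity
      have hb : (b.den : ℚ) ≠ 0 := by positivity
      field_simp at h
      have : (((a.num * b.den) ^ 2 + (b.num * a.den) ^ 2 : ℤ) : ℚ) =
          ((6 * ((a.den * b.den : ℕ) : ℤ) ^ 2 : ℤ) : ℚ) := by
        push_cast; linarith
      exact_mod_cast this
    rw [← Int.natAbs_sq (a.num * b.den), ← Int.natAbs_sq (b.num * a.den)] at e
    exact_mod_cast e
  have hev := (Nat.eq_sq_add_sq_iff (n := 6 * n ^ 2)).1 ⟨x, y, he.symm⟩ 3
    (Nat.mem_primeFactors.2 ⟨Nat.prime_three, dvd_mul_of_dvd_left (by norm_num) _, by positivity⟩)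
    rfl
  have : Fact (Nat.Prime 3) := ⟨Nat.prime_three⟩
  rw [padicValNat.mul (by norm_num) (by positivity), padicValNat.pow,
    show (6 : ℕ) = 3 * 2 by norm_num, padicValNat.mul (by norm_num) (by norm_num),
    padicValNat.self (by norm_num), padicValNat.eq_zero_of_not_dvd (by norm_num : ¬ 3 ∣ 2)] at hev
  obtain ⟨t, ht⟩ := hev
  omega

/-- Six is not a sum of two squares in a number field of odd degree. -/
theorem six_ne_odd (F : IntermediateField ℚ ℝ) (hF : Odd (Module.finrank ℚ F)) (a b : F) :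
    a ^ 2 + b ^ 2 ≠ 6 := by
  classical
  intro h
  have : FiniteDimensional ℚ F := Module.finite_of_finrank_pos hF.pos
  set β := Module.finBasis ℚ F
  set M := Algebra.leftMulMatrix β a
  set N := Algebra.leftMulMatrix β b
  let ι := (Rat.castHom ℂ).mapMatrix (m := Fin (Module.finrank ℚ F))
  let S : Subring ℂ :=
    { carrier := {z | ∃ p q : ℚ, z = p + q * Complex.I}
      mul_mem' := by
        rintro _ _ ⟨p, q, rfl⟩ ⟨p', q', rfl⟩
        refine ⟨p * p' - q * q', p * q' + q * p', ?_⟩
        push_cast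
        linear_combination ((q : ℂ) * q') * Complex.I_mul_I
      one_mem' := ⟨1, 0, by simp⟩
      add_mem' := by
        rintro _ _ ⟨p, q, rfl⟩ ⟨p', q', rfl⟩
        exact ⟨p + p', q + q', by push_cast; ring⟩
      zero_mem' := ⟨0, 0, by simp⟩
      neg_mem' := by
        rintro _ ⟨p, q, rfl⟩
        exact ⟨-p, -q, by push_cast; ring⟩ }
  obtain ⟨p, q, hpq⟩ : (ι M + Complex.I • ι N).det ∈ S := by
    rw [Matrix.det_apply]
    refine sum_mem fun σ _ => zsmul_mem (prod_mem fun t _ => ?_) _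
    exact ⟨M (σ t) t, N (σ t) t, by simp [ι, mul_comm]⟩
  have hconj : conj (ι M + Complex.I • ι N).det = (ι M - Complex.I • ι N).det := by
    rw [RingHom.map_det]
    congr 1
    ext i j
    simp [ι, sub_eq_add_neg]
  have hsum : M * M + N * N = (6 : ℚ) • 1 := by
    rw [← map_mul, ← map_mul, ← map_add, ← sq, ← sq, h,
      show (6 : F) = (6 : ℚ) • (1 : F) by rw [Algebra.smul_def, mul_one, map_ofNat],
      map_smul, map_one]
  have hcomm : M * N = N * M := by rw [← map_mul, mul_comm, map_mul]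
  have hprod : (ι M + Complex.I • ι N) * (ι M - Complex.I • ι N) = (6 : ℂ) • 1 := by
    have e1 : ι M * ι M + ι N * ι N = (6 : ℂ) • 1 := by
      rw [← map_mul ι, ← map_mul ι, ← map_add ι, hsum]
      ext i j
      by_cases hij : i = j <;> simp [ι, hij]
    have e2 : ι M * ι N = ι N * ι M := by rw [← map_mul, hcomm, map_mul]
    rw [← e1]
    simp [add_mul, mul_sub, smul_smul, e2]
    abel
  have hd := congrArg Matrix.det hprod
  rw [det_mul, ← hconj, Complex.mul_conj, hpq, det_smul, det_one, mul_one] at hd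
  obtain ⟨k, hk⟩ := hF
  rw [Fintype.card_fin, hk] at hd
  have hq : p ^ 2 + q ^ 2 = (6 : ℚ) ^ (2 * k + 1) := by
    have e := congrArg Complex.re hd
    rw [Complex.ofReal_re, show (6 : ℂ) ^ (2 * k + 1) = ((6 ^ (2 * k + 1) : ℝ) : ℂ) by simp,
      Complex.ofReal_re, Complex.normSq_apply] at e
    simp at e
    exact_mod_cast (show (p : ℝ) ^ 2 + (q : ℝ) ^ 2 = (6 : ℝ) ^ (2 * k + 1) by rw [← e]; ring)
  refine six_ne_rat (p / 6 ^ k) (q / 6 ^ k) ?_
  rw [div_pow, div_pow, ← add_div, hq, ← pow_mul]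
  field_simp
  ring

/-- No complete set of mutually unbiased bases of dimension six over such a field. -/
theorem no_complete (F : IntermediateField ℚ ℝ) (hF : ∀ a b : F, a ^ 2 + b ^ 2 ≠ 6)
    (K : Subfield ℂ) (hconj : ∀ z ∈ K, conj z ∈ K) (hreal : ∀ t : ℝ, (t : ℂ) ∈ K → t ∈ F)
    (x : Fin 7 → Fin 6 → Fin 6 → ℂ)
    (ho : ∀ k j m, ∑ a, x k j a * conj (x k m a) = if j = m then 1 else 0)
    (hu : ∀ k l, k ≠ l → ∀ j m, Complex.normSq (∑ a, x k j a * conj (x l m a)) = 1 / 6)
    (hK : ∀ k j a b, x k j a * conj (x k j b) ∈ K) : False := by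
  have hre : ∀ z ∈ K, z.re ∈ F := fun z hz => hreal _ (by
    rw [Complex.re_eq_add_conj]
    exact K.div_mem (K.add_mem hz (hconj z hz)) (natCast_mem K 2))
  obtain ⟨δ, hδ, hδ0, him⟩ : ∃ δ : ℝ, δ ^ 2 ∈ F ∧ δ ≠ 0 ∧ ∀ z ∈ K, z.im / δ ∈ F := by
    by_cases h : ∀ z ∈ K, z.im = 0
    · exact ⟨1, by simp, one_ne_zero, fun z hz => by simp [h z hz]⟩
    push Not at h
    obtain ⟨w, hw, hw0⟩ := h
    have h2 : ∀ z ∈ K, z - conj z ∈ K := fun z hz => K.sub_mem hz (hconj z hz)
    refine ⟨w.im, ?_, hw0, fun z hz => ?_⟩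
    · refine hreal _ ?_
      have : ((w.im ^ 2 : ℝ) : ℂ) = -((w - conj w) / 2) ^ 2 := by
        rw [Complex.sub_conj]
        push_cast
        linear_combination ((w.im : ℂ) ^ 2) * Complex.I_mul_I
      rw [this]
      exact K.neg_mem (pow_mem (K.div_mem (h2 w hw) (natCast_mem K 2)) _)
    · refine hreal _ ?_
      have : ((z.im / w.im : ℝ) : ℂ) = (z - conj z) / (w - conj w) := by
        rw [Complex.sub_conj, Complex.sub_conj]
        push_cast
        field_simp
      rw [this]
      exact K.div_mem (h2 z hz) (h2 w hw)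
  obtain ⟨a, b, ha, hb, hab⟩ := ordered_field_case F δ hδ hδ0 x ho hu
    (fun k j a b => hre _ (hK k j a b)) (fun k j a b => him _ (hK k j a b))
  exact hF ⟨a, ha⟩ ⟨b, hb⟩ (Subtype.ext (by push_cast; exact hab))

end Vale.Agent.P355
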